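import Mathlib

open MeasureTheory

namespace Vale.Agent.P227.Fin3

/-- Euclidean space. -/
abbrev E (n : ℕ) := EuclideanSpace ℝ (Fin n)

/-- Volume of a set as a real number. -/
noncomputable def vol {n : ℕ} (K : Set (E n)) : ℝ := (volume K).toReal

/-- Origin-symmetric convex body. -/
structure SymConvexBody {n : ℕ} (K : Set (E n)) : Prop where
  convex : Convex ℝ K
  isCompact : IsCompact K
  nonempty_interior : (interior K).Nonempty
  symm : ∀ x ∈ K, -x ∈ K

/-- Support function. -/
noncomputable def supportFn {n : ℕ} (K : Set (E n)) (u : E n) : ℝ := sSup ((fun x => inner ℝ x u) '' K)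

/-- Wulff body. -/
def wulff {n : ℕ} (f : E n → ℝ) : Set (E n) := {x | ∀ u, ‖u‖ = 1 → inner ℝ x u ≤ f u}

/-- Logarithmic combination. -/
noncomputable def logComb {n : ℕ} (t : ℝ) (K L : Set (E n)) : Set (E n) :=
  wulff (fun u => supportFn K u ^ (1 - t) * supportFn L u ^ t)

/-- The logarithmic Brunn-Minkowski inequality in all dimensions. -/
def LogBM : Prop := ∀ (n : ℕ) (K L : Set (E n)) (t : ℝ), 0 < n → SymConvexBody K → SymConvexBody L →
  0 ≤ t → t ≤ 1 → vol K ^ (1 - t) * vol L ^ t ≤ vol (logComb t K L)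

end Vale.Agent.P227.Fin3
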