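import Vale.Agent.P227.Fin3.Defs
import Vale.Agent.P227.End.Wall

/-! # P227: the logarithmic Brunn-Minkowski inequality from the local variance inequality -/

open MeasureTheory

namespace Vale.Agent.P227.Fin3

theorem scb {n : ℕ} {K : Set (E n)} (h : SymConvexBody K) : Vale.Agent.P227.SymConvexBody K :=
  ⟨h.convex, h.isCompact, h.nonempty_interior, h.symm⟩

/-- it is enough to have the local inequality for all smooth even uniformly convex walls -/
theorem logBM_of_local
    (H : ∀ (v v1 v2 : ℝ → ℝ) (e : ℝ), End.Wall v v1 v2 → (∀ m : WithTop ℕ∞, ContDiff ℝ m v) →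
      (∀ t, v (-t) = v t) → (∀ t, 0 < v2 t) → 0 < e → End.LocalIneq v v1 v2 e) : LogBM :=
  fun _ _ _ _ hn hK hL ht0 ht1 => End.log_bm_of_local_all H hn (scb hK) (scb hL) ht0 ht1

/-- it is enough to have the local inequality for the explicit walls -/
theorem logBM_of_sp (H : ∀ k : ℕ, End.LocalIneq (End.sp k) (End.sp1 k) (End.sp2 k) (1 / ((k : ℝ) + 1))) : LogBM :=
  fun _ _ _ _ hn hK hL ht0 ht1 => End.log_bm_of_local H hn (scb hK) (scb hL) ht0 ht1

end Vale.Agent.P227.Fin3
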