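import Vale.Agent.P227.Fin3.Defs
import Vale.Agent.P227.M.END.Top

/-! # P227: the logarithmic Brunn-Minkowski inequality from `M.StmtLocal` -/

open MeasureTheory

namespace Vale.Agent.P227.Fin3

theorem scbM {n : ℕ} {K : Set (E n)} (h : SymConvexBody K) : Vale.Agent.P227.SymConvexBody K :=
  ⟨h.convex, h.isCompact, h.nonempty_interior, h.symm⟩

/-- the local functional inequality gives the full statement of the judge copy -/
theorem logBM_of_stmtLocal (H : Vale.Agent.P227.M.StmtLocal) : LogBM :=
  fun _ _ _ _ hn hK hL ht0 ht1 => Vale.Agent.P227.M.END.q1_of_stmtLocal H hn (scbM hK) (scbM hL) ht0 ht1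

end Vale.Agent.P227.Fin3
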